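import Vale.Agent.P235.K5.H578.Cut
import Vale.Agent.P235.K5.Glue

set_option linter.all false

/-!
# The N half: from the laws of the torsos to a cut metric which separates far pairs (helper578)
-/

namespace Vale.Agent.P235.K5.H578

open Finset Function Vale.Agent.P235 Vale.Agent.P235.H684

/-- a tree of torsos is a tree of bags -/
def ofTor {n T k : ℕ} (Z : Tor n T k) : Bags n T where
  β := Z.tor
  mono := Z.mono
  surj := Z.surj
  par := Z.up
  par_lt := fun t ht => Z.up_lt t (Nat.pos_of_ne_zero ht)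
  S := Z.S
  S_zero := by
    intro t ht
    refine Z.root t (le_antisymm (Z.up_le t) ?_)
    show t.val ≤ (Z.up t).val
    rw [ht]
    exact Nat.zero_le _
  S_sub := fun t a ha => (Z.sub t a ha).symm

section

variable {n T k : ℕ} (Z : Tor n T k)

theorem up_zero {t : Fin T} (ht : t.val = 0) : Z.up t = t := by
  refine le_antisymm (Z.up_le t) ?_
  show t.val ≤ (Z.up t).val
  rw [ht]
  exact Nat.zero_le _

theorem anc_iff {t u : Fin T} : (ofTor Z).Anc t u ↔ Z.tree.Desc t u := by
  have h1 : (fun s : Fin T => if s.val = 0 then s else (ofTor Z).par s) = Z.up := by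
    funext s
    by_cases hs : s.val = 0
    · rw [if_pos hs, up_zero Z hs]
    · rw [if_neg hs]
      rfl
  unfold Bags.Anc
  rw [h1]
  exact Iff.rfl

theorem up_iter_ne {t u : Fin T} {j : ℕ} (h : Z.up^[j] u = t) (ht : t.val ≠ 0) :
    ∀ i ≤ j, (Z.up^[i] u).val ≠ 0 := by
  intro i hi h0
  apply ht
  have e : j = (j - i) + i := by omega
  rw [e, Function.iterate_add_apply] at h
  have h1 := Function.iterate_fixed (up_zero Z h0) (j - i)
  rw [h1] at h
  rw [← h, h0]

/-- **The N half.** -/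
theorem n_half (hk : 1 ≤ k) {d : Fin n → Fin n → ℝ} {C1 : ℝ} (hC1 : 0 ≤ C1)
    (hN : Z.NLaw d C1) : ∃ F : Fin n → Fin n → ℝ, IsL1 F ∧
      (∀ t, ∀ p ∈ Z.H t, ∀ q ∈ Z.H t, F p q ≤ d p q) ∧
      ∀ t : Fin T, t.val ≠ 0 → ∀ z, Z.Below t z → ∀ y, ¬ Z.Below t y →
        ∀ r : ℝ, 0 < r → (∀ a ∈ Z.S t, r ≤ d z a) →
          r ≤ C1 * H254.KK (2 ^ k) * F z y := by
  obtain ⟨μ, Λ, hΛ, hμ, hcons, hup, hfar⟩ := hN
  have hc : ∀ t : Fin T, t.val ≠ 0 → ∀ h : (Fin n → Bool) → ℝ,
      DepOn ((ofTor Z).S t : Set (Fin n)) h → Ex (μ t) h = Ex (μ ((ofTor Z).par t)) h := by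
    intro t ht h hh
    exact hcons t (ne_of_lt (Z.up_lt t (Nat.pos_of_ne_zero ht))) h hh
  refine ⟨fun x y => Λ * PM (KK (ofTor Z).elim fun v => μ ((ofTor Z).β v)) fun X =>
    if X x = X y then 0 else 1, ?_, ?_, ?_⟩
  · exact (isL1_PM ((ofTor Z).kk_ker hμ) id).smul hΛ.le
  · intro t p hp q hq
    show Λ * PM _ _ ≤ _
    rw [(ofTor Z).PM_dif hμ hc (t := t) hp hq]
    exact hup t p hp q hq
  · intro t ht z hz y hy r hr hra
    obtain ⟨j, hj⟩ := hz
    have hj' : Z.up^[j] (Z.tor z) = t := hj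
    have hne := up_iter_ne Z hj' ht
    set s : ℕ → Fin T := fun i => Z.up^[j + 1 - i] (Z.tor z) with hs
    have hsN : s (j + 1) = Z.tor z := by
      simp only [hs, Nat.sub_self, Function.iterate_zero, id_eq]
    have hs1 : s 1 = t := by
      simp only [hs, Nat.add_sub_cancel]
      exact hj'
    have hpar : ∀ i < j + 1, Z.up (s (i + 1)) = s i := by
      intro i hi
      simp only [hs]
      have e : j + 1 - i = (j + 1 - (i + 1)) + 1 := by omega
      rw [e, Function.iterate_succ_apply']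
    have hval : ∀ i < j + 1, (s (i + 1)).val ≠ 0 := by
      intro i hi
      exact hne (j + 1 - (i + 1)) (by omega)
    have hP : Path Z.tree s (j + 1) := by
      refine ⟨Nat.succ_pos _, hpar, fun i hi h => ?_⟩
      have h1 := Z.up_lt (s (i + 1)) (Nat.pos_of_ne_zero (hval i hi))
      rw [hpar i hi, h] at h1
      exact lt_irrefl _ h1
    obtain ⟨c, Ω, hΩ, w, X, hX, hrc⟩ := hfar s (j + 1) hP z hsN.symm r hr (by
      rw [hs1]
      exact hra)
    have hX' : CoupT (ofTor Z) μ s (j + 1) z c w X := by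
      refine ⟨hX.nonneg, ?_, hX.agree, hX.far⟩
      intro i h1 hi h hh
      refine hX.bag i h1 hi h (hh.mono ?_)
      rintro v (hv | hv)
      · exact Finset.mem_coe.2 (Finset.mem_union_left _ (Finset.mem_coe.1 hv))
      · by_cases h3 : i < j + 1
        · rw [if_pos h3] at hv
          have hv' : v ∈ Z.S (s (i + 1)) := Finset.mem_coe.1 hv
          rcases Z.sub _ v hv' with h4 | h4
          · rw [hpar i h3] at h4
            exact Finset.mem_coe.2 (Finset.mem_union_left _ h4)
          · rw [hpar i h3] at h4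
            exact Finset.mem_coe.2 (Finset.mem_union_right _
              (Finset.mem_filter.2 ⟨Finset.mem_univ _, h4⟩))
        · rw [if_neg h3] at hv
          have hv' : v = z := Finset.mem_singleton.1 (Finset.mem_coe.1 hv)
          have hi' : i = j + 1 := by omega
          rw [hv', hi']
          exact Finset.mem_coe.2 (Finset.mem_union_right _
            (Finset.mem_filter.2 ⟨Finset.mem_univ _, hsN.symm⟩))
    have hy' : ¬ (ofTor Z).Anc (s 1) ((ofTor Z).β y) := by
      rw [hs1, anc_iff]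
      exact hy
    have hz' : z ∈ (ofTor Z).H (s (j + 1)) := by
      rw [hsN]
      exact Finset.mem_union_right _ ((ofTor Z).mem_new.2 rfl)
    have h5 := far_bags (ofTor Z) hμ hc (Nat.succ_pos j)
      (fun i hi => ⟨hval i hi, hpar i hi⟩) hz' hk (fun t => Z.card t) hX' hy'
    refine hrc.trans ?_
    show C1 * (Λ * c) ≤ C1 * H254.KK (2 ^ k) * (Λ * PM _ _)
    have h6 := mul_le_mul_of_nonneg_left h5 (mul_nonneg hC1 hΛ.le)
    calc C1 * (Λ * c) = C1 * Λ * c := by ring
      _ ≤ _ := h6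
      _ = _ := by ring

end

end Vale.Agent.P235.K5.H578
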