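import Vale.Agent.P235.K5.H578.Far

set_option linter.all false

/-!
# The elimination tree of a tree of bags (helper578)
-/

namespace Vale.Agent.P235.K5.H578

open Finset Function Vale.Agent.P235 Vale.Agent.P235.H684

/-- a rooted tree of bags on the vertices `Fin n`: `β v` is the bag in which `v` is new, `S t` the
adhesion of the bag `t` with its parent; the root is `0` -/
structure Bags (n m : ℕ) where
  β : Fin n → Fin m
  mono : Monotone β
  surj : Function.Surjective β
  par : Fin m → Fin m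
  par_lt : ∀ t, t.val ≠ 0 → par t < t
  S : Fin m → Finset (Fin n)
  S_zero : ∀ t, t.val = 0 → S t = ∅
  S_sub : ∀ t, ∀ a ∈ S t, β a = par t ∨ a ∈ S (par t)

namespace Bags

variable {n m : ℕ} (T : Bags n m)

/-- the new vertices of the bag -/
def new (t : Fin m) : Finset (Fin n) := Finset.univ.filter fun v => T.β v = t

theorem mem_new {t : Fin m} {v : Fin n} : v ∈ T.new t ↔ T.β v = t := by
  simp [new]

theorem new_nonempty (t : Fin m) : (T.new t).Nonempty := by
  obtain ⟨v, hv⟩ := T.surj t
  exact ⟨v, T.mem_new.2 hv⟩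

/-- the bag -/
def H (t : Fin m) : Finset (Fin n) := T.S t ∪ T.new t

/-- the first new vertex -/
def fst (t : Fin m) : Fin n := (T.new t).min' (T.new_nonempty t)

/-- the last new vertex -/
def lst (t : Fin m) : Fin n := (T.new t).max' (T.new_nonempty t)

theorem β_fst (t : Fin m) : T.β (T.fst t) = t := T.mem_new.1 (Finset.min'_mem _ _)

theorem β_lst (t : Fin m) : T.β (T.lst t) = t := T.mem_new.1 (Finset.max'_mem _ _)

theorem fst_le {t : Fin m} {v : Fin n} (h : T.β v = t) : T.fst t ≤ v :=
  Finset.min'_le _ _ (T.mem_new.2 h)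

theorem le_lst {t : Fin m} {v : Fin n} (h : T.β v = t) : v ≤ T.lst t :=
  Finset.le_max' _ _ (T.mem_new.2 h)

theorem lt_of_β {u v : Fin n} (h : T.β u < T.β v) : u < v := by
  by_contra hcon
  exact absurd h (not_lt.2 (T.mono (not_lt.1 hcon)))

/-- the vertices of the adhesion are new in earlier bags -/
theorem β_lt_of_mem : ∀ {t : Fin m} {a : Fin n}, a ∈ T.S t → T.β a < t := by
  intro t
  induction t using WellFoundedLT.induction with
  | ind t ih =>
    intro a ha
    have h0 : t.val ≠ 0 := by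
      intro h0
      rw [T.S_zero t h0] at ha
      simp at ha
    have hlt := T.par_lt t h0
    rcases T.S_sub t a ha with h | h
    · rw [h]
      exact hlt
    · exact (ih _ hlt h).trans hlt

/-- the predecessor -/
def pred (v : Fin n) : Fin n := ⟨v.val - 1, by omega⟩

theorem pred_lt {v : Fin n} (hv : v ≠ T.fst (T.β v)) : pred v < v := by
  have h1 : T.fst (T.β v) < v := lt_of_le_of_ne (T.fst_le rfl) (Ne.symm hv)
  have h2 : (T.fst (T.β v)).val < v.val := h1
  show v.val - 1 < v.val
  omega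

theorem β_pred {v : Fin n} (hv : v ≠ T.fst (T.β v)) : T.β (pred v) = T.β v := by
  have h1 : T.fst (T.β v) < v := lt_of_le_of_ne (T.fst_le rfl) (Ne.symm hv)
  have h2 : T.fst (T.β v) ≤ pred v := by
    have h3 : (T.fst (T.β v)).val < v.val := h1
    show (T.fst (T.β v)).val ≤ v.val - 1
    omega
  refine le_antisymm (T.mono (T.pred_lt hv).le) ?_
  have h4 := T.mono h2
  rwa [T.β_fst] at h4

theorem le_pred {u v : Fin n} (h : u < v) : u ≤ pred v := by
  have h' : u.val < v.val := h
  show u.val ≤ v.val - 1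
  omega

/-- the adhesions of the vertices -/
def AA (v : Fin n) : Finset (Fin n) :=
  T.S (T.β v) ∪ (T.new (T.β v)).filter fun u => u < v

/-- the parents of the vertices -/
def pp (v : Fin n) : Fin n :=
  if v = T.fst (T.β v) then (if (T.β v).val = 0 then v else T.lst (T.par (T.β v))) else pred v

theorem mem_AA {a v : Fin n} : a ∈ T.AA v ↔ a ∈ T.S (T.β v) ∨ (T.β a = T.β v ∧ a < v) := by
  unfold AA
  rw [Finset.mem_union, Finset.mem_filter, T.mem_new]

theorem AA_lst {a : Fin n} {t : Fin m} :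
    a ∈ insert (T.lst t) (T.AA (T.lst t)) ↔ a ∈ T.S t ∨ T.β a = t := by
  rw [Finset.mem_insert, T.mem_AA, T.β_lst]
  constructor
  · rintro (h | h | h)
    · right
      rw [h, T.β_lst]
    · exact Or.inl h
    · exact Or.inr h.1
  · rintro (h | h)
    · exact Or.inr (Or.inl h)
    · rcases (T.le_lst h).eq_or_lt with h1 | h1
      · exact Or.inl h1
      · exact Or.inr (Or.inr ⟨h, h1⟩)

/-- **the elimination tree** -/
def elim : Elim n where
  A := T.AA
  par := T.pp
  lt := by
    intro v a ha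
    rcases T.mem_AA.1 ha with h | h
    · exact T.lt_of_β (T.β_lt_of_mem h)
    · exact h.2
  par_le := by
    intro v
    unfold pp
    split_ifs with h1 h2
    · exact le_rfl
    · refine (T.lt_of_β ?_).le
      rw [T.β_lst]
      exact T.par_lt _ h2
    · exact (T.pred_lt h1).le
  root := by
    intro v hv
    unfold pp at hv
    split_ifs at hv with h1 h2
    · ext a
      rw [T.mem_AA, T.S_zero _ h2]
      constructor
      · rintro (h | h)
        · simp at h
        · exfalso
          have := T.fst_le h.1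
          rw [← h1] at this
          exact absurd h.2 (not_lt.2 this)
      · simp
    · exfalso
      have h3 : T.lst (T.par (T.β v)) < v := by
        refine T.lt_of_β ?_
        rw [T.β_lst]
        exact T.par_lt _ h2
      rw [hv] at h3
      exact lt_irrefl _ h3
    · exfalso
      have h3 := T.pred_lt h1
      rw [hv] at h3
      exact lt_irrefl _ h3
  sub := by
    intro v a ha
    unfold pp
    split_ifs with h1 h2
    · rw [Finset.mem_insert]
      exact Or.inr ha
    · rw [T.AA_lst]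
      rcases T.mem_AA.1 ha with h | h
      · rcases T.S_sub _ a h with h3 | h3
        · exact Or.inr h3
        · exact Or.inl h3
      · exfalso
        have h3 := T.fst_le h.1
        rw [← h1] at h3
        exact absurd h.2 (not_lt.2 h3)
    · rw [Finset.mem_insert, T.mem_AA, T.β_pred h1]
      rcases T.mem_AA.1 ha with h | h
      · exact Or.inr (Or.inl h)
      · rcases (le_pred h.2).eq_or_lt with h3 | h3
        · exact Or.inl h3
        · exact Or.inr (Or.inr ⟨h.1, h3⟩)

theorem A_fst (t : Fin m) : T.elim.A (T.fst t) = T.S t := by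
  ext a
  show a ∈ T.AA (T.fst t) ↔ _
  rw [T.mem_AA, T.β_fst]
  constructor
  · rintro (h | h)
    · exact h
    · exact absurd h.2 (not_lt.2 (T.fst_le h.1))
  · exact Or.inl

theorem B_lst (t : Fin m) : T.elim.B (T.lst t) = T.H t := by
  ext a
  show a ∈ insert (T.lst t) (T.AA (T.lst t)) ↔ _
  rw [T.AA_lst, H, Finset.mem_union, T.mem_new]

theorem par_fst {t : Fin m} (ht : t.val ≠ 0) : T.elim.par (T.fst t) = T.lst (T.par t) := by
  show T.pp (T.fst t) = _
  unfold pp
  rw [T.β_fst, if_pos rfl, if_neg ht]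

theorem desc_fst : ∀ (k : ℕ) (v : Fin n), v.val - (T.fst (T.β v)).val = k →
    T.elim.Desc (T.fst (T.β v)) v := by
  intro k
  induction k with
  | zero =>
    intro v hv
    have h1 : T.fst (T.β v) ≤ v := T.fst_le rfl
    have h2 : T.fst (T.β v) = v := by
      refine le_antisymm h1 ?_
      show v.val ≤ (T.fst (T.β v)).val
      omega
    rw [h2]
    exact Elim.Desc.refl _ _
  | succ k ih =>
    intro v hv
    have h1 : v ≠ T.fst (T.β v) := by
      intro h
      have h2 : v.val = (T.fst (T.β v)).val := congrArg Fin.val h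
      omega
    have h2 : T.elim.par v = pred v := by
      show T.pp v = _
      unfold pp
      rw [if_neg h1]
    refine Elim.Desc.par ?_
    rw [h2]
    have h3 := ih (pred v) (by
      rw [T.β_pred h1]
      show v.val - 1 - (T.fst (T.β v)).val = k
      omega)
    rwa [T.β_pred h1] at h3

theorem desc_lst (t : Fin m) : T.elim.Desc (T.fst t) (T.lst t) := by
  have h := T.desc_fst _ (T.lst t) rfl
  rwa [T.β_lst] at h

/-- `t` is `u` or an ancestor of `u` -/
def Anc (t u : Fin m) : Prop := ∃ j : ℕ, (fun s => if s.val = 0 then s else T.par s)^[j] u = t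

theorem Anc.refl (t : Fin m) : T.Anc t t := ⟨0, rfl⟩

theorem anc_par {t u : Fin m} (hu : u.val ≠ 0) (h : T.Anc t (T.par u)) : T.Anc t u := by
  obtain ⟨j, hj⟩ := h
  refine ⟨j + 1, ?_⟩
  rw [Function.iterate_succ_apply]
  simp only [if_neg hu]
  exact hj

/-- a descendant of the first vertex of `t` is new in a descendant bag -/
theorem anc_of_desc {t : Fin m} {v : Fin n} (h : T.elim.Desc (T.fst t) v) : T.Anc t (T.β v) := by
  obtain ⟨j, hj⟩ := h
  induction j generalizing v with
  | zero =>
    have h1 : v = T.fst t := hj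
    rw [h1, T.β_fst]
    exact Anc.refl T t
  | succ j ih =>
    rw [Function.iterate_succ_apply] at hj
    have h1 := ih hj
    have h2 : T.elim.par v = T.pp v := rfl
    rw [h2] at h1
    unfold pp at h1
    split_ifs at h1 with h3 h4
    · exact h1
    · rw [T.β_lst] at h1
      exact T.anc_par h4 h1
    · rwa [T.β_pred h3] at h1

theorem mem_out {t : Fin m} {y : Fin n} (h : ¬ T.Anc t (T.β y)) : y ∈ T.elim.Out (T.fst t) :=
  fun hd => h (T.anc_of_desc hd)

/-- a path of bags -/
theorem cpath {N : ℕ} (hN : 0 < N) {t : ℕ → Fin m}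
    (ht : ∀ i < N, (t (i + 1)).val ≠ 0 ∧ T.par (t (i + 1)) = t i) :
    CPath T.elim (fun i => T.fst (t i)) (fun i => T.lst (t i)) N where
  pos := hN
  par := by
    intro i hi
    show T.elim.par (T.fst (t (i + 1))) = T.lst (t i)
    rw [T.par_fst (ht i hi).1, (ht i hi).2]
  desc := fun i _ => T.desc_lst (t i)

/-- consistent bag laws -/
theorem cons {μ : Fin m → (Fin n → Bool) → ℝ} (hμ : ∀ t : Fin m, t.val ≠ 0 →
    ∀ h : (Fin n → Bool) → ℝ, DepOn (T.S t : Set (Fin n)) h →
      Ex (μ t) h = Ex (μ (T.par t)) h) : Cons T.elim fun v => μ (T.β v) := by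
  intro v hv h hh
  have h2 : T.elim.par v = T.pp v := rfl
  have h3 : T.elim.A v = T.AA v := rfl
  rw [h2] at hv ⊢
  unfold pp at hv ⊢
  split_ifs at hv ⊢ with h4 h5
  · exact absurd rfl hv
  · show Ex (μ (T.β v)) h = Ex (μ (T.β (T.lst (T.par (T.β v))))) h
    rw [T.β_lst]
    refine hμ _ h5 h ?_
    have h6 := T.A_fst (T.β v)
    rw [← h4] at h6
    rwa [h6] at hh
  · show Ex (μ (T.β v)) h = Ex (μ (T.β (pred v))) h
    rw [T.β_pred h4]

/-- the bag laws of the Markov law -/
theorem PM_bag' {μ : Fin m → (Fin n → Bool) → ℝ} (hl : ∀ t, IsLaw (μ t))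
    (hc : Cons T.elim fun v => μ (T.β v)) (t : Fin m) {h : (Fin n → Bool) → ℝ}
    (hh : DepOn (T.H t : Set (Fin n)) h) :
    PM (KK T.elim fun v => μ (T.β v)) h = Ex (μ t) h := by
  have h1 := PM_bag (E := T.elim) (μ := fun v => μ (T.β v)) (fun v => hl _) hc (T.lst t) (h := h)
    (by rw [T.B_lst]; exact hh)
  rw [h1]
  show Ex (μ (T.β (T.lst t))) h = _
  rw [T.β_lst]

end Bags

/-- a coupling of the bag laws along a path of bags `t 0, …, t N` -/
structure CoupT {n m : ℕ} (T : Bags n m) (μ : Fin m → (Fin n → Bool) → ℝ) (t : ℕ → Fin m)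
    (N : ℕ) (z : Fin n) (c : ℝ) {Ω : Type} [Fintype Ω] (w : Ω → ℝ)
    (X : ℕ → Ω → (Fin n → Bool)) : Prop where
  nonneg : ∀ ω, 0 ≤ w ω
  bag : ∀ i, 1 ≤ i → i ≤ N → ∀ h : (Fin n → Bool) → ℝ,
    DepOn ((T.S (t i) : Set (Fin n)) ∪
      ((if i < N then T.S (t (i + 1)) else {z} : Finset (Fin n)) : Set (Fin n))) h →
    ∑ ω, w ω * h (X i ω) = Ex (μ (t i)) h
  agree : ∀ i, 1 ≤ i → i < N → ∀ ω, w ω ≠ 0 → ∀ v ∈ T.S (t (i + 1)), X i ω v = X (i + 1) ω v
  far : ∀ f : (Fin n → Bool) → ℝ, (∀ Y, f Y = 0 ∨ f Y = 1) →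
    DepOn (T.S (t 1) : Set (Fin n)) f →
    c ≤ ∑ ω, w ω * |f (X 1 ω) - (if X N ω z = true then 1 else 0)|

/-- **Far vertices are separated**, in the letters of the tree of bags. -/
theorem far_bags {n m : ℕ} (T : Bags n m) {μ : Fin m → (Fin n → Bool) → ℝ}
    (hμ : ∀ t, IsLaw (μ t)) (hc : ∀ t : Fin m, t.val ≠ 0 →
      ∀ h : (Fin n → Bool) → ℝ, DepOn (T.S t : Set (Fin n)) h →
        Ex (μ t) h = Ex (μ (T.par t)) h)
    {N : ℕ} (hN : 0 < N) {t : ℕ → Fin m}
    (ht : ∀ i < N, (t (i + 1)).val ≠ 0 ∧ T.par (t (i + 1)) = t i) {z : Fin n}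
    (hz : z ∈ T.H (t N)) {k : ℕ} (hk : 1 ≤ k) (hS : ∀ t, (T.S t).card ≤ k) {c : ℝ}
    {Ω : Type} [Fintype Ω] {w : Ω → ℝ} {X : ℕ → Ω → (Fin n → Bool)}
    (hX : CoupT T μ t N z c w X) {y : Fin n} (hy : ¬ T.Anc (t 1) (T.β y)) :
    c ≤ H254.KK (2 ^ k) *
      PM (KK T.elim fun v => μ (T.β v)) fun X => if X z = X y then 0 else 1 := by
  refine far_block (fun v => hμ _) (T.cons hc) (T.cpath hN ht) (z := z) ?_ hk ?_ ?_
    (X := X) (w := w) ⟨hX.nonneg, ?_, ?_, ?_⟩ (T.mem_out hy)
  · rw [T.B_lst]
    exact hz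
  · intro i _ _
    rw [T.A_fst]
    exact hS _
  · intro i _ _
    rw [T.A_fst, T.B_lst]
    exact Finset.subset_union_left
  · intro i h1 hi h hh
    have h2 := hX.bag i h1 hi h (by
      intro Y Z hYZ
      refine hh Y Z fun v hv => hYZ v ?_
      rcases hv with hv | hv
      · left
        rwa [T.A_fst] at hv
      · right
        unfold Dc at hv
        by_cases h3 : i < N
        · rw [if_pos h3] at hv ⊢
          rwa [T.A_fst] at hv
        · rw [if_neg h3] at hv ⊢
          exact hv)
    rw [h2]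
    show _ = Ex (μ (T.β (T.lst (t i)))) h
    rw [T.β_lst]
  · intro i h1 hi ω hw v hv
    refine hX.agree i h1 hi ω hw v ?_
    rwa [T.A_fst] at hv
  · intro f hf hfd
    refine hX.far f hf ?_
    rwa [T.A_fst] at hfd

/-- the numbering: the vertices of a finite set can be numbered by `Fin n` so that the home bags are
in increasing order -/
theorem exists_numbering {V : Type} [Fintype V] {m : ℕ} (β : V → Fin m) :
    ∃ e : V ≃ Fin (Fintype.card V), Monotone fun i => β (e.symm i) := by
  classical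
  let e0 : V ≃ Fin (Fintype.card V) := Fintype.equivFin V
  let f : V → Lex (Fin m × Fin (Fintype.card V)) := fun v => toLex (β v, e0 v)
  have hf : Function.Injective f := by
    intro u v huv
    have h1 : (β u, e0 u) = (β v, e0 v) := toLex.injective huv
    exact e0.injective (Prod.mk.inj h1).2
  letI : LinearOrder V := LinearOrder.lift' f hf
  let e : Fin (Fintype.card V) ≃o V := Fintype.orderIsoFinOfCardEq V rfl
  refine ⟨e.toEquiv.symm, fun i j hij => ?_⟩
  have h1 : e i ≤ e j := e.monotone hij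
  have h2 : f (e i) ≤ f (e j) := h1
  show β (e i) ≤ β (e j)
  rcases (Prod.Lex.le_iff.1 h2) with h3 | h3
  · exact h3.le
  · exact h3.1.le

end Vale.Agent.P235.K5.H578
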