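import Vale.Agent.P235.H684.Harm

set_option linter.all false

/-!
# Far pairs in an elimination tree with large bags (helper578)

The states live on the adhesions of a coarse path only.
-/

namespace Vale.Agent.P235.K5.H578

open Finset Function Vale.Agent.P235 Vale.Agent.P235.H684

variable {n : ℕ}

/-- integrate out the vertices of a whole bag: `t` its first, `v` its last vertex -/
theorem key_block {E : Elim n} {K : Fin n → (Fin n → Bool) → Bool → ℝ} (hK : Ker E.A K)
    {t v : Fin n} (h : E.Desc t v) : ∀ Φ : (Fin n → Bool) → ℝ,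
      DepOn (E.B v : Set (Fin n)) Φ → ∃ Ψ : (Fin n → Bool) → ℝ,
        DepOn (E.A t : Set (Fin n)) Ψ ∧ ∀ G : (Fin n → Bool) → ℝ, DepOn (E.Out t) G →
          PM K (fun X => G X * Φ X) = PM K fun X => G X * Ψ X := by
  obtain ⟨j, hj⟩ := h
  induction j generalizing v with
  | zero =>
    intro Φ hΦ
    obtain rfl : v = t := hj
    have hΦ1 : DepOn (insert v (E.A v : Set (Fin n))) Φ := by
      refine hΦ.mono ?_
      rw [Elim.B, Finset.coe_insert]
    exact ⟨Sop K v Φ, Sop_dep hK subset_rfl hΦ1, fun G hG => PM_key hK hG hΦ⟩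
  | succ j ih =>
    intro Φ hΦ
    have hΦ1 : DepOn (insert v (E.A v : Set (Fin n))) Φ := by
      refine hΦ.mono ?_
      rw [Elim.B, Finset.coe_insert]
    have hS : DepOn (E.B (E.par v) : Set (Fin n)) (Sop K v Φ) :=
      (Sop_dep hK subset_rfl hΦ1).mono (Finset.coe_subset.2 (E.sub v))
    obtain ⟨Ψ, h1, h2⟩ := ih (v := E.par v) (by rwa [Function.iterate_succ_apply] at hj) _ hS
    refine ⟨Ψ, h1, fun G hG => ?_⟩
    have hd : E.Desc t v := ⟨j + 1, hj⟩
    rw [PM_key hK (hG.mono fun w hw h => hw (hd.trans h)) hΦ]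
    exact h2 G hG

/-- a Markov chain of states on the sets `D 0, …, D N` -/
structure Ch (E : Elim n) (K : Fin n → (Fin n → Bool) → Bool → ℝ) (t : ℕ → Fin n)
    (D : ℕ → Finset (Fin n)) (N : ℕ) : Prop where
  pos : 0 < N
  sub : ∀ i, i < N → (D i : Set (Fin n)) ⊆ E.Out (t (i + 1))
  out : ∀ i, 1 ≤ i → i ≤ N → E.Out (t 1) ⊆ E.Out (t i)
  markov : ∀ i, i < N → ∀ Φ : (Fin n → Bool) → ℝ, DepOn (D (i + 1) : Set (Fin n)) Φ →
    ∃ Ψ : (Fin n → Bool) → ℝ, DepOn (D i : Set (Fin n)) Ψ ∧
      ∀ G : (Fin n → Bool) → ℝ, DepOn (E.Out (t (i + 1))) G →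
        PM K (fun X => G X * Φ X) = PM K fun X => G X * Ψ X

section pair

variable {E : Elim n} {K : Fin n → (Fin n → Bool) → Bool → ℝ} {t : ℕ → Fin n}
  {D : ℕ → Finset (Fin n)} {N : ℕ}

noncomputable def ind (D : ℕ → Finset (Fin n)) (i : ℕ) (a X : Fin n → Bool) : ℝ :=
  if mask (D i) X = a then 1 else 0

theorem ind_dep (i : ℕ) (a : Fin n → Bool) : DepOn (D i : Set (Fin n)) (ind D i a) := by
  intro X Y h
  unfold ind
  rw [mask_dep (D i) X Y h]

theorem ind_nonneg (i : ℕ) (a X : Fin n → Bool) : 0 ≤ ind D i a X := by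
  unfold ind; split_ifs <;> norm_num

theorem ind_le_one (i : ℕ) (a X : Fin n → Bool) : ind D i a X ≤ 1 := by
  unfold ind; split_ifs <;> norm_num

theorem sum_ind (i : ℕ) (X : Fin n → Bool) (g : (Fin n → Bool) → ℝ) :
    ∑ a, g a * ind D i a X = g (mask (D i) X) := by
  unfold ind
  simp

/-- the masses of the states -/
noncomputable def nu (K : Fin n → (Fin n → Bool) → Bool → ℝ) (D : ℕ → Finset (Fin n))
    (i : ℕ) (a : Fin n → Bool) : ℝ := PM K (ind D i a)

/-- the masses of the pairs -/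
noncomputable def pp (K : Fin n → (Fin n → Bool) → Bool → ℝ) (D : ℕ → Finset (Fin n))
    (i : ℕ) (a b : Fin n → Bool) : ℝ :=
  PM K fun X => ind D i a X * ind D (i + 1) b X

theorem sum_pp (i : ℕ) (g : (Fin n → Bool) → (Fin n → Bool) → ℝ) :
    ∑ a, ∑ b, pp K D i a b * g a b =
      PM K fun X => g (mask (D i) X) (mask (D (i + 1)) X) := by
  have h1 : (fun X => g (mask (D i) X) (mask (D (i + 1)) X)) =
      fun X => ∑ a, ∑ b, g a b * (ind D i a X * ind D (i + 1) b X) := by
    funext X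
    have h2 : ∀ a, ∑ b, g a b * (ind D i a X * ind D (i + 1) b X) =
        g a (mask (D (i + 1)) X) * ind D i a X := by
      intro a
      rw [← sum_ind (D := D) (i + 1) X (g a), Finset.sum_mul]
      exact Finset.sum_congr rfl fun b _ => by ring
    rw [Finset.sum_congr rfl fun a _ => h2 a]
    exact (sum_ind (D := D) i X fun a => g a (mask (D (i + 1)) X)).symm
  rw [h1, PM_sum]
  refine Finset.sum_congr rfl fun a _ => ?_
  rw [PM_sum]
  refine Finset.sum_congr rfl fun b _ => ?_
  rw [PM_smul, mul_comm]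
  rfl

theorem sum_nu (i : ℕ) (g : (Fin n → Bool) → ℝ) :
    ∑ a, nu K D i a * g a = PM K fun X => g (mask (D i) X) := by
  have h1 : (fun X => g (mask (D i) X)) = fun X => ∑ a, g a * ind D i a X := by
    funext X
    rw [sum_ind]
  rw [h1, PM_sum]
  refine Finset.sum_congr rfl fun a _ => ?_
  rw [PM_smul, mul_comm]
  rfl

/-- the pair laws of the chain -/
noncomputable def PL (hK : Ker E.A K) (D : ℕ → Finset (Fin n)) (N : ℕ) :
    H254.PairLaw (Fin n → Bool) N where
  mu := nu K D
  p := pp K D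
  p_nonneg i a b := PM_nonneg hK fun X => mul_nonneg (ind_nonneg _ _ _) (ind_nonneg _ _ _)
  mu_nonneg i a := PM_nonneg hK fun X => ind_nonneg _ _ _
  left := by
    intro i hi a
    have h1 := sum_pp (K := K) (D := D) i fun a' _ => if a' = a then 1 else 0
    have h2 : ∑ a', ∑ b, pp K D i a' b * (if a' = a then (1 : ℝ) else 0) =
        ∑ b, pp K D i a b := by
      rw [Finset.sum_eq_single a]
      · simp
      · intro b _ hb
        simp [hb]
      · simp
    rw [← h2, h1]
    rfl
  right := by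
    intro i hi b
    have h1 := sum_pp (K := K) (D := D) i fun _ b' => if b' = b then 1 else 0
    have h2 : ∑ a, ∑ b', pp K D i a b' * (if b' = b then (1 : ℝ) else 0) =
        ∑ a, pp K D i a b := by
      refine Finset.sum_congr rfl fun a _ => ?_
      simp
    rw [← h2, h1]
    rfl

theorem atMost (hK : Ker E.A K) {k : ℕ} (hD : ∀ i ≤ N, (D i).card ≤ k) :
    H254.AtMost (PL hK D N) (2 ^ k) := by
  classical
  intro i hi
  refine ⟨(D i).powerset.image fun s v => decide (v ∈ s), ?_, fun a ha => ?_⟩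
  · refine Finset.card_image_le.trans ?_
    rw [Finset.card_powerset]
    exact Nat.pow_le_pow_right (by norm_num) (hD i hi)
  · by_contra hcon
    apply ha
    show PM K (ind D i a) = 0
    have h0 : ind D i a = fun _ => 0 := by
      funext X
      unfold ind
      rw [if_neg]
      intro h
      apply hcon
      rw [Finset.mem_image]
      refine ⟨(D i).filter fun v => X v = true, ?_, ?_⟩
      · rw [Finset.mem_powerset]
        exact Finset.filter_subset _ _
      · rw [← h]
        funext v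
        by_cases hv : v ∈ D i <;> by_cases hx : X v = true <;> simp [mask, hv, hx]
    rw [h0, PM_const hK]

/-- a coupling of the laws of `D i ∪ D (i + 1)` in which the vertex `z` is never guessed better
than `c` from `D 0` -/
structure CoupD (K : Fin n → (Fin n → Bool) → Bool → ℝ) (D : ℕ → Finset (Fin n)) (N : ℕ)
    (z : Fin n) (c : ℝ) {Ω : Type} [Fintype Ω] (w : Ω → ℝ) (X : ℕ → Ω → (Fin n → Bool)) :
    Prop where
  nonneg : ∀ ω, 0 ≤ w ω
  bag : ∀ i < N, ∀ h : (Fin n → Bool) → ℝ,
    DepOn ((D i : Set (Fin n)) ∪ (D (i + 1) : Set (Fin n))) h →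
    ∑ ω, w ω * h (X (i + 1) ω) = PM K h
  agree : ∀ i, i + 1 < N → ∀ ω, w ω ≠ 0 → ∀ v ∈ D (i + 1), X (i + 1) ω v = X (i + 2) ω v
  far : ∀ f : (Fin n → Bool) → ℝ, (∀ Y, f Y = 0 ∨ f Y = 1) →
    DepOn (D 0 : Set (Fin n)) f →
    c ≤ ∑ ω, w ω * |f (X 1 ω) - (if X N ω z = true then 1 else 0)|

/-- the coupling has the pair laws of the chain -/
theorem hasPairs (hK : Ker E.A K) (hN : 0 < N) {z : Fin n} {c : ℝ} {Ω : Type} [Fintype Ω]
    {w : Ω → ℝ} {X : ℕ → Ω → (Fin n → Bool)} (hX : CoupD K D N z c w X) :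
    H254.HasPairs (PL hK D N) w fun i ω => mask (D i) (X (min (i + 1) N) ω) where
  nonneg := hX.nonneg
  pair := by
    intro i hi g
    have h1 := sum_pp (K := K) (D := D) i g
    have hdep : DepOn ((D i : Set (Fin n)) ∪ (D (i + 1) : Set (Fin n))) fun Y =>
        g (mask (D i) Y) (mask (D (i + 1)) Y) := by
      intro Y Z hYZ
      have e1 := mask_dep (D i) Y Z fun v hv => hYZ v (Or.inl hv)
      have e2 := mask_dep (D (i + 1)) Y Z fun v hv => hYZ v (Or.inr hv)
      simp only [e1, e2]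
    have h3 := hX.bag i hi _ hdep
    show _ = ∑ a, ∑ b, pp K D i a b * g a b
    rw [h1, ← h3]
    refine Finset.sum_congr rfl fun ω _ => ?_
    by_cases hw : w ω = 0
    · rw [hw, zero_mul, zero_mul]
    · congr 1
      have hm1 : min (i + 1) N = i + 1 := by omega
      simp only [hm1]
      congr 1
      by_cases hi2 : i + 1 < N
      · have hm2 : min (i + 1 + 1) N = i + 2 := by omega
        rw [hm2]
        exact mask_dep _ _ _ fun v hv => (hX.agree i hi2 ω hw v (Finset.mem_coe.1 hv)).symm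
      · have hm2 : min (i + 1 + 1) N = i + 1 := by omega
        rw [hm2]
  last := by
    intro g
    obtain ⟨m, rfl⟩ : ∃ m, N = m + 1 := ⟨N - 1, by omega⟩
    have hdep : DepOn ((D m : Set (Fin n)) ∪ (D (m + 1) : Set (Fin n))) fun Y =>
        g (mask (D (m + 1)) Y) := by
      intro Y Z hYZ
      have e1 := mask_dep (D (m + 1)) Y Z fun v hv => hYZ v (Or.inr hv)
      simp only [e1]
    have h1 := sum_nu (K := K) (D := D) (m + 1) g
    have h3 := hX.bag m (by omega) _ hdep
    show _ = ∑ b, nu K D (m + 1) b * g b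
    rw [h1, ← h3]
    have hm : min (m + 1 + 1) (m + 1) = m + 1 := by omega
    simp only [hm]

/-- the joint masses of the guess and the states -/
noncomputable def num (K : Fin n → (Fin n → Bool) → Bool → ℝ) (D : ℕ → Finset (Fin n))
    (F : (Fin n → Bool) → ℝ) (i : ℕ) (a : Fin n → Bool) : ℝ :=
  PM K fun X => F X * ind D i a X

/-- the conditional probabilities of the guess -/
noncomputable def psi (K : Fin n → (Fin n → Bool) → Bool → ℝ) (D : ℕ → Finset (Fin n))
    (F : (Fin n → Bool) → ℝ) (i : ℕ) (a : Fin n → Bool) : ℝ :=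
  if i = 0 then F a else num K D F i a / nu K D i a

theorem psi_zero (F : (Fin n → Bool) → ℝ) : psi K D F 0 = F := by
  funext a
  simp [psi]

theorem num_nonneg (hK : Ker E.A K) {F : (Fin n → Bool) → ℝ} (hF : ∀ X, F X = 0 ∨ F X = 1)
    (i : ℕ) (a : Fin n → Bool) : 0 ≤ num K D F i a := by
  refine PM_nonneg hK fun X => mul_nonneg ?_ (ind_nonneg _ _ _)
  rcases hF X with h | h <;> rw [h] <;> norm_num

theorem num_le (hK : Ker E.A K) {F : (Fin n → Bool) → ℝ} (hF : ∀ X, F X = 0 ∨ F X = 1)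
    (i : ℕ) (a : Fin n → Bool) : num K D F i a ≤ nu K D i a := by
  refine PM_mono hK fun X => ?_
  have h1 := ind_nonneg (D := D) i a X
  rcases hF X with h | h <;> rw [h] <;> linarith

/-- `nu * psi` is the joint mass -/
theorem nu_psi (hK : Ker E.A K) {F : (Fin n → Bool) → ℝ}
    (hF : ∀ X, F X = 0 ∨ F X = 1) (hd : DepOn (D 0 : Set (Fin n)) F)
    (i : ℕ) (a : Fin n → Bool) : nu K D i a * psi K D F i a = num K D F i a := by
  by_cases hi : i = 0
  · subst hi
    rw [psi_zero, mul_comm]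
    unfold nu num
    rw [← PM_smul]
    congr 1
    funext X
    unfold ind
    by_cases h : mask (D 0) X = a
    · rw [if_pos h, ← h]
      have h1 : F (mask (D 0) X) = F X := hd.mask X
      rw [h1]
    · rw [if_neg h, mul_zero, mul_zero]
  · unfold psi
    rw [if_neg hi]
    by_cases h : nu K D i a = 0
    · have h1 := num_nonneg (D := D) hK hF i a
      have h2 := num_le (D := D) hK hF i a
      rw [h] at h2 ⊢
      rw [zero_mul]
      exact le_antisymm h1 h2
    · field_simp

/-- **the Markov step** -/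
theorem step (hc : Ch E K t D N) {F : (Fin n → Bool) → ℝ}
    (hd : DepOn (E.Out (t 1)) F) (i : ℕ) (hi : i < N) (b : Fin n → Bool) :
    ∃ u : (Fin n → Bool) → ℝ,
      (∀ a, pp K D i a b = nu K D i a * u a) ∧
      ∑ a, num K D F i a * u a = num K D F (i + 1) b := by
  obtain ⟨u, hu, hkey⟩ := hc.markov i hi _ (ind_dep (D := D) (i + 1) b)
  refine ⟨u, fun a => ?_, ?_⟩
  · have hia : DepOn (E.Out (t (i + 1))) (ind D i a) := (ind_dep i a).mono (hc.sub i hi)
    unfold pp
    rw [hkey _ hia, mul_comm]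
    unfold nu
    rw [← PM_smul]
    congr 1
    funext X
    unfold ind
    by_cases h : mask (D i) X = a
    · rw [if_pos h, ← h, one_mul, mul_one]
      exact (hu.mask X).symm
    · rw [if_neg h, zero_mul, mul_zero]
  · have h1 := PM_expand (K := K) (D i) F u
    have h2 : (fun X => F X * u (mask (D i) X)) = fun X => F X * u X := by
      funext X
      rw [hu.mask X]
    have h3 : PM K (fun X => F X * u X) = num K D F (i + 1) b :=
      (hkey F (hd.mono (hc.out (i + 1) (by omega) hi))).symm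
    rw [← h3, ← h2, h1]
    refine Finset.sum_congr rfl fun a _ => ?_
    rw [mul_comm]
    rfl

/-- **harmonicity of the conditional probabilities** -/
theorem harm (hK : Ker E.A K) (hc : Ch E K t D N) {F : (Fin n → Bool) → ℝ}
    (hF : ∀ X, F X = 0 ∨ F X = 1) (hd : DepOn (D 0 : Set (Fin n)) F)
    (i : ℕ) (hi : i < N) (b : Fin n → Bool) :
    ∑ a, pp K D i a b * psi K D F i a =
      nu K D (i + 1) b * psi K D F (i + 1) b := by
  obtain ⟨u, h1, h2⟩ := step hc (hd.mono (hc.sub 0 hc.pos)) i hi b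
  rw [nu_psi hK hF hd, ← h2]
  refine Finset.sum_congr rfl fun a _ => ?_
  rw [h1 a, ← nu_psi hK hF hd i a]
  ring

/-- **Comparison**: the guesses of the Markov law are not much better. -/
theorem guess (hK : Ker E.A K) (hc : Ch E K t D N) {z : Fin n} (hz : D N = {z})
    {k : ℕ} (hD : ∀ i ≤ N, (D i).card ≤ k) {c : ℝ} {Ω : Type} [Fintype Ω]
    {w : Ω → ℝ} {X : ℕ → Ω → (Fin n → Bool)} (hX : CoupD K D N z c w X)
    {F : (Fin n → Bool) → ℝ} (hF : ∀ X, F X = 0 ∨ F X = 1)
    (hd : DepOn (D 0 : Set (Fin n)) F) :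
    c ≤ H254.KK (2 ^ k) * PM K fun X => |F X - val z X| := by
  have hN := hc.pos
  have hHP := hasPairs hK hN hX
  have h1 := H254.comparison' (PL hK D N) F (atMost hK hD) hF (val_cases z) hHP
    (ψ := psi K D F) (psi_zero F) (harm hK hc hF hd)
  refine (hX.far F hF hd).trans ?_
  have h2 : ∑ ω, w ω * |F (X 1 ω) - (if X N ω z = true then 1 else 0)| =
      ∑ ω, w ω * |F (mask (D 0) (X (min (0 + 1) N) ω)) -
        val z (mask (D N) (X (min (N + 1) N) ω))| := by
    refine Finset.sum_congr rfl fun ω _ => ?_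
    have e1 : min (0 + 1) N = 1 := by omega
    have e2 : min (N + 1) N = N := by omega
    rw [e1, e2]
    have e3 : F (mask (D 0) (X 1 ω)) = F (X 1 ω) := hd.mask _
    have e4 : val z (mask (D N) (X N ω)) = val z (X N ω) := by
      refine val_dep z _ _ fun v hv => ?_
      rw [Set.mem_singleton_iff] at hv
      rw [hv, hz]
      exact mask_of_mem (Finset.mem_singleton_self _) _
    rw [e3, e4]
    rfl
  rw [h2]
  refine h1.trans (le_of_eq ?_)
  congr 1
  show ∑ b, nu K D N b * |psi K D F N b - val z b| = _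
  have h3 : (fun X => |F X - val z X|) = fun X =>
      ∑ b, (val z b * (ind D N b X + (-1) * (F X * ind D N b X)) +
        (1 - val z b) * (F X * ind D N b X)) := by
    funext X
    have e1 : ∑ b, (val z b * (ind D N b X + (-1) * (F X * ind D N b X)) +
        (1 - val z b) * (F X * ind D N b X)) =
        ∑ b, ((val z b * (1 - F X) + (1 - val z b) * F X) * ind D N b X) :=
      Finset.sum_congr rfl fun b _ => by ring
    rw [e1, sum_ind (D := D) N X
      fun b => val z b * (1 - F X) + (1 - val z b) * F X]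
    have e4 : val z (mask (D N) X) = val z X := by
      refine val_dep z _ _ fun v hv => ?_
      rw [Set.mem_singleton_iff] at hv
      rw [hv, hz]
      exact mask_of_mem (Finset.mem_singleton_self _) _
    rw [e4]
    rcases hF X with h | h <;> rcases val_cases z X with h' | h' <;> rw [h, h'] <;> norm_num
  rw [h3, PM_sum]
  refine Finset.sum_congr rfl fun b _ => ?_
  rw [PM_add, PM_smul, PM_smul, PM_add, PM_smul]
  have h4 := nu_psi (D := D) hK hF hd N b
  have h5 := num_nonneg (D := D) hK hF N b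
  have h6 := num_le (D := D) hK hF N b
  show _ = val z b * (nu K D N b + (-1) * num K D F N b) + (1 - val z b) * num K D F N b
  have h7 : 0 ≤ nu K D N b := h5.trans h6
  rw [← abs_of_nonneg h7, ← abs_mul, abs_of_nonneg h7, mul_sub, h4]
  rcases val_cases z b with h' | h'
  · rw [h', mul_zero, sub_zero, abs_of_nonneg h5]
    ring
  · rw [h', mul_one, abs_of_nonpos (by linarith)]
    ring

/-- integrate out the whole chain -/
theorem back (hc : Ch E K t D N) (j : ℕ) (hj : j ≤ N) :
    ∀ Φ : (Fin n → Bool) → ℝ, DepOn (D j : Set (Fin n)) Φ → ∃ Ψ : (Fin n → Bool) → ℝ,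
      DepOn (D 0 : Set (Fin n)) Ψ ∧ ∀ G : (Fin n → Bool) → ℝ, DepOn (E.Out (t 1)) G →
        PM K (fun X => G X * Φ X) = PM K fun X => G X * Ψ X := by
  induction j with
  | zero => exact fun Φ hΦ => ⟨Φ, hΦ, fun _ _ => rfl⟩
  | succ j ih =>
    intro Φ hΦ
    obtain ⟨Φ', h1, h2⟩ := hc.markov j (by omega) Φ hΦ
    obtain ⟨Ψ, h3, h4⟩ := ih (by omega) Φ' h1
    refine ⟨Ψ, h3, fun G hG => ?_⟩
    rw [h2 G (hG.mono (hc.out (j + 1) (by omega) hj))]
    exact h4 G hG

/-- **Far vertices are separated.** -/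
theorem far_pair (hK : Ker E.A K) (hc : Ch E K t D N) {z : Fin n} (hz : D N = {z})
    {k : ℕ} (hD : ∀ i ≤ N, (D i).card ≤ k) {c : ℝ} {Ω : Type} [Fintype Ω]
    {w : Ω → ℝ} {X : ℕ → Ω → (Fin n → Bool)} (hX : CoupD K D N z c w X)
    {y : Fin n} (hy : y ∈ E.Out (t 1)) :
    c ≤ H254.KK (2 ^ k) * PM K fun X => if X z = X y then 0 else 1 := by
  have hval : DepOn (D N : Set (Fin n)) (val z) := (val_dep z).mono (by
    rw [hz, Finset.coe_singleton])
  obtain ⟨m, hm, hbk⟩ := back hc N le_rfl (H684.val z) hval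
  set F : (Fin n → Bool) → ℝ := fun X => if 1 / 2 < m X then 1 else 0 with hFdef
  have hF : ∀ X, F X = 0 ∨ F X = 1 := fun X => by
    rw [hFdef]; dsimp only; split_ifs <;> simp
  have hFd : DepOn (D 0 : Set (Fin n)) F := by
    intro X Y h
    rw [hFdef]
    dsimp only
    rw [hm X Y h]
  have h1 := guess hK hc hz hD hX hF hFd
  refine h1.trans (mul_le_mul_of_nonneg_left ?_ ?_)
  · have h2 : ∀ G : (Fin n → Bool) → ℝ, (∀ X, G X = 0 ∨ G X = 1) → DepOn (E.Out (t 1)) G →
        PM K (fun X => |G X - val z X|) = PM K fun X => G X + (1 - 2 * G X) * m X := by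
      intro G hG hGd
      have e1 : (fun X => |G X - val z X|) = fun X => G X + (1 - 2 * G X) * val z X := by
        funext X
        rcases hG X with h | h <;> rcases val_cases z X with h' | h' <;> rw [h, h'] <;>
          norm_num
      rw [e1, PM_add, PM_add]
      congr 1
      refine hbk (fun X => 1 - 2 * G X) ?_
      intro X Y h
      show 1 - 2 * G X = 1 - 2 * G Y
      rw [hGd X Y h]
    have hy1 : DepOn (E.Out (t 1)) (val y) := (val_dep y).mono (by
      rw [Set.singleton_subset_iff]; exact hy)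
    rw [h2 F hF (hFd.mono (hc.sub 0 hc.pos))]
    have e2 : (fun X : Fin n → Bool => if X z = X y then (0 : ℝ) else 1) =
        fun X => |val y X - val z X| := by
      funext X
      unfold H684.val
      cases X z <;> cases X y <;> simp
    rw [e2, h2 (val y) (val_cases y) hy1]
    refine PM_mono hK fun X => ?_
    rw [hFdef]
    dsimp only
    rcases val_cases y X with h | h <;> rw [h] <;> split_ifs with h' <;> linarith
  · unfold H254.KK
    positivity

end pair

/-! ### Coarse paths -/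

/-- a coarse path: `q i` is the first, `l i` the last vertex of the bag `i` -/
structure CPath (E : Elim n) (q l : ℕ → Fin n) (N : ℕ) : Prop where
  pos : 0 < N
  par : ∀ i < N, E.par (q (i + 1)) = l i
  desc : ∀ i ≤ N, E.Desc (q i) (l i)

/-- the sets on which the states live: the adhesions, and the vertex `z` -/
def Dc (E : Elim n) (q : ℕ → Fin n) (N : ℕ) (z : Fin n) (i : ℕ) : Finset (Fin n) :=
  if i < N then E.A (q (i + 1)) else {z}

theorem Dc_lt {E : Elim n} {q : ℕ → Fin n} {N : ℕ} {z : Fin n} {i : ℕ} (h : i < N) :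
    Dc E q N z i = E.A (q (i + 1)) := if_pos h

theorem Dc_last {E : Elim n} {q : ℕ → Fin n} {N : ℕ} {z : Fin n} :
    Dc E q N z N = {z} := if_neg (lt_irrefl _)

section coarse

variable {E : Elim n} {q l : ℕ → Fin n} {N : ℕ} {K : Fin n → (Fin n → Bool) → Bool → ℝ}

/-- the adhesion of the next bag is in the bag -/
theorem CPath.A_sub (hp : CPath E q l N) {i : ℕ} (hi : i < N) :
    E.A (q (i + 1)) ⊆ E.B (l i) := by
  have := E.sub (q (i + 1))
  rwa [hp.par i hi] at this

theorem CPath.desc_one (hp : CPath E q l N) {i : ℕ} (h1 : 1 ≤ i) (hi : i ≤ N) :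
    E.Desc (q 1) (q i) := by
  induction i, h1 using Nat.le_induction with
  | base => exact Elim.Desc.refl E _
  | succ i h1 ih =>
    have h2 : E.Desc (q i) (E.par (q (i + 1))) := by
      rw [hp.par i (by omega)]
      exact hp.desc i (by omega)
    exact (ih (by omega)).trans (Elim.Desc.par h2)

/-- the states of the next step live in the bag -/
theorem CPath.D_sub (hp : CPath E q l N) {z : Fin n} (hz : z ∈ E.B (l N)) {i : ℕ} (hi : i < N) :
    Dc E q N z (i + 1) ⊆ E.B (l (i + 1)) := by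
  by_cases h : i + 1 < N
  · rw [Dc_lt h]
    exact hp.A_sub h
  · have h1 : i + 1 = N := by omega
    rw [h1, Dc_last, Finset.singleton_subset_iff]
    exact hz

theorem CPath.ch (hK : Ker E.A K) (hp : CPath E q l N) {z : Fin n} (hz : z ∈ E.B (l N)) :
    Ch E K q (Dc E q N z) N where
  pos := hp.pos
  sub := by
    intro i hi
    rw [Dc_lt hi]
    exact Elim.A_sub_out_self _
  out := fun i h1 hi _ hv h => hv ((hp.desc_one h1 hi).trans h)
  markov := by
    intro i hi Φ hΦ
    obtain ⟨Ψ, h1, h2⟩ := key_block hK (hp.desc (i + 1) hi) Φ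
      (hΦ.mono (Finset.coe_subset.2 (hp.D_sub hz hi)))
    refine ⟨Ψ, ?_, h2⟩
    rw [Dc_lt hi]
    exact h1

end coarse

/-- a coupling of the bag laws along a coarse path -/
structure CoupB (E : Elim n) (μ : Fin n → (Fin n → Bool) → ℝ) (q l : ℕ → Fin n) (N : ℕ)
    (z : Fin n) (c : ℝ) {Ω : Type} [Fintype Ω] (w : Ω → ℝ) (X : ℕ → Ω → (Fin n → Bool)) :
    Prop where
  nonneg : ∀ ω, 0 ≤ w ω
  bag : ∀ i, 1 ≤ i → i ≤ N → ∀ h : (Fin n → Bool) → ℝ,
    DepOn ((E.A (q i) : Set (Fin n)) ∪ (Dc E q N z i : Set (Fin n))) h →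
    ∑ ω, w ω * h (X i ω) = Ex (μ (l i)) h
  agree : ∀ i, 1 ≤ i → i < N → ∀ ω, w ω ≠ 0 → ∀ v ∈ E.A (q (i + 1)), X i ω v = X (i + 1) ω v
  far : ∀ f : (Fin n → Bool) → ℝ, (∀ Y, f Y = 0 ∨ f Y = 1) →
    DepOn (E.A (q 1) : Set (Fin n)) f →
    c ≤ ∑ ω, w ω * |f (X 1 ω) - (if X N ω z = true then 1 else 0)|

/-- **Far vertices are separated**, bags of any size, adhesions of at most `k` vertices. -/
theorem far_block {E : Elim n} {μ : Fin n → (Fin n → Bool) → ℝ} (hμ : ∀ t, IsLaw (μ t))
    (hc : Cons E μ) {q l : ℕ → Fin n} {N : ℕ} (hp : CPath E q l N) {z : Fin n}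
    (hz : z ∈ E.B (l N)) {k : ℕ} (hk : 1 ≤ k) (hA : ∀ i, 1 ≤ i → i ≤ N → (E.A (q i)).card ≤ k)
    (hAB : ∀ i, 1 ≤ i → i ≤ N → E.A (q i) ⊆ E.B (l i))
    {c : ℝ} {Ω : Type} [Fintype Ω] {w : Ω → ℝ} {X : ℕ → Ω → (Fin n → Bool)}
    (hX : CoupB E μ q l N z c w X) {y : Fin n} (hy : y ∈ E.Out (q 1)) :
    c ≤ H254.KK (2 ^ k) * PM (KK E μ) fun X => if X z = X y then 0 else 1 := by
  have hK := KK_ker (E := E) hμ
  refine far_pair hK (hp.ch hK hz) Dc_last ?_ (X := X) (w := w) ⟨hX.nonneg, ?_, ?_, ?_⟩ hy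
  · intro i hi
    by_cases h : i < N
    · rw [Dc_lt h]
      exact hA (i + 1) (by omega) (by omega)
    · have h1 : i = N := by omega
      rw [h1, Dc_last, Finset.card_singleton]
      exact hk
  · intro i hi h hh
    rw [Dc_lt hi] at hh
    rw [hX.bag (i + 1) (by omega) (by omega) h hh]
    refine (PM_bag hμ hc (l (i + 1)) (hh.mono (Set.union_subset ?_ ?_))).symm
    · exact Finset.coe_subset.2 (hAB (i + 1) (by omega) (by omega))
    · exact Finset.coe_subset.2 (hp.D_sub hz hi)
  · intro i hi ω hw v hv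
    rw [Dc_lt hi] at hv
    exact hX.agree (i + 1) (by omega) hi ω hw v hv
  · intro f hf hfd
    rw [Dc_lt hp.pos] at hfd
    exact hX.far f hf hfd

end Vale.Agent.P235.K5.H578
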