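import Vale.Agent.P235.K5.H578.Lin
import Vale.Agent.P235.Bdl.B1

set_option linter.all false

/-!
# The cut metric of the Markov law (helper578)
-/

namespace Vale.Agent.P235.K5.H578

open Finset Function Vale.Agent.P235 Vale.Agent.P235.H684

/-- the cut metric of a law on the cuts of `Fin n`, on any set of vertices numbered by `e` -/
theorem isL1_PM {V : Type} {n : ℕ} {A : Fin n → Finset (Fin n)}
    {K : Fin n → (Fin n → Bool) → Bool → ℝ} (hK : Ker A K) (e : V → Fin n) :
    IsL1 fun x y : V => PM K fun X => if X (e x) = X (e y) then 0 else 1 := by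
  refine ⟨Fin n → Bool, inferInstance, PW K, fun X v => X (e v), (PW_isLaw hK).nonneg,
    fun x y => ?_⟩
  show PM K (fun X => if X (e x) = X (e y) then 0 else 1) = _
  rw [PM_eq_Ex]
  rfl

/-- the bags are isometric -/
theorem Bags.PM_dif {n m : ℕ} (T : Bags n m) {μ : Fin m → (Fin n → Bool) → ℝ}
    (hl : ∀ t, IsLaw (μ t)) (hc : ∀ t : Fin m, t.val ≠ 0 →
      ∀ h : (Fin n → Bool) → ℝ, DepOn (T.S t : Set (Fin n)) h →
        Ex (μ t) h = Ex (μ (T.par t)) h)
    {t : Fin m} {x y : Fin n} (hx : x ∈ T.H t) (hy : y ∈ T.H t) :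
    PM (KK T.elim fun v => μ (T.β v)) (fun X => if X x = X y then 0 else 1) =
      Ex (μ t) fun X => if X x = X y then 0 else 1 := by
  refine T.PM_bag' hl (T.cons hc) t ?_
  intro Y Z h
  show (if Y x = Y y then (0 : ℝ) else 1) = if Z x = Z y then 0 else 1
  rw [h x (Finset.mem_coe.2 hx), h y (Finset.mem_coe.2 hy)]

/-- the load of the Markov law: pairs of the bags suffice -/
theorem Bags.kk_ker {n m : ℕ} (T : Bags n m) {μ : Fin m → (Fin n → Bool) → ℝ}
    (hl : ∀ t, IsLaw (μ t)) : Ker T.elim.A (KK T.elim fun v => μ (T.β v)) :=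
  KK_ker (E := T.elim) fun v => hl _

/-- the triangle inequality of the cut metric -/
theorem PM_tri {n : ℕ} {A : Fin n → Finset (Fin n)} {K : Fin n → (Fin n → Bool) → Bool → ℝ}
    (hK : Ker A K) (x y z : Fin n) :
    PM K (fun X => if X x = X z then 0 else 1) ≤
      PM K (fun X => if X x = X y then 0 else 1) + PM K fun X => if X y = X z then 0 else 1 := by
  rw [← PM_add]
  refine PM_mono hK fun X => ?_
  by_cases h1 : X x = X y
  · rw [if_pos h1, h1]
    simp
  · rw [if_neg h1]
    split_ifs <;> norm_num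

end Vale.Agent.P235.K5.H578
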